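import Vale.Agent.Lib.P028F.FinalT

open Filter MeasureTheory

namespace Vale.Agent.Results.P028.AA_erdos_vaaler

/-- Inhomogeneous Erdos-Vaaler theorem for every shift. Write `ψ₁ q = min (ψ q) (1 / q)`. If the sum
of `φ(q) / q * ψ₁ q` diverges, with `γ` arbitrary, or if `γ` is irrational and not a Liouville number
and the sum of `ψ₁` diverges, then for almost every real `x` the inequality `|q x - a - γ| < ψ q` has
solutions `(q, a)` for infinitely many `q`. -/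
theorem result (γ : ℝ) (ψ : ℕ → ℝ) (h0 : ∀ q, 0 ≤ ψ q)
    (h : ¬ Summable (fun q : ℕ => ((Nat.totient q : ℝ) / q) * min (ψ q) (1 / (q : ℝ))) ∨
      (Irrational γ ∧ ¬ Liouville γ ∧ ¬ Summable (fun q : ℕ => min (ψ q) (1 / (q : ℝ))))) :
    ∀ᵐ x : ℝ, ∃ᶠ q : ℕ in atTop, ∃ a : ℤ, |(q : ℝ) * x - a - γ| < ψ q := by
  have h1 : ∀ q : ℕ, 0 ≤ min (ψ q) (1 / (q : ℝ)) := fun q => le_min (h0 q) (by positivity)
  have hC : ∀ q : ℕ, 1 ≤ q → min (ψ q) (1 / (q : ℝ)) ≤ 1 / q := fun q _ => min_le_right _ _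
  have hle : ∀ q : ℕ, min (ψ q) (1 / (q : ℝ)) ≤ ψ q := fun q => min_le_left _ _
  rcases h with hw | ⟨hirr, hL, hdiv⟩
  · exact Vale.Agent.Lib.P028F.main_T1 γ ψ h0 hw
  · obtain ⟨c, n, hc, hdio⟩ := Vale.Agent.Lib.P028E.dio_of_not_liouville γ hirr hL
    exact Vale.Agent.Lib.P028E.ae_mono hle
      (Vale.Agent.Lib.P028E.main_dio γ _ h1 1 hC hdiv c n hc hdio)

end Vale.Agent.Results.P028.AA_erdos_vaaler
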