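import Vale.Agent.Results.P028.AAA_union
import Vale.Agent.Results.P028.AA_erdos_vaaler

open Filter MeasureTheory

namespace Vale.Agent.Results.P028.AAAA_union

/-- All full measure criteria in one statement. For every constant shift, the Erdős-Vaaler form; for
every sequence of shifts, the gcd-sum criterion and the criterion for boundedly many divisors. -/
theorem result :
    (∀ (γ : ℝ) (ψ : ℕ → ℝ), (∀ q, 0 ≤ ψ q) →
      (¬ Summable (fun q : ℕ => ((Nat.totient q : ℝ) / q) * min (ψ q) (1 / (q : ℝ))) ∨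
        (Irrational γ ∧ ¬ Liouville γ ∧ ¬ Summable (fun q : ℕ => min (ψ q) (1 / (q : ℝ))))) →
      ∀ᵐ x : ℝ, ∃ᶠ q : ℕ in atTop, ∃ a : ℤ, |(q : ℝ) * x - a - γ| < ψ q) ∧
    (∀ (γ ψ : ℕ → ℝ), (∀ q, 0 ≤ ψ q) →
      ((Tendsto (fun Q : ℕ => ∑ q ∈ Finset.Icc 1 Q, min (ψ q) (1 / 2)) atTop atTop) →
        (∀ ε : ℝ, 0 < ε → ∃ᶠ Q : ℕ in atTop,
          ∑ q ∈ Finset.Icc 1 Q, min (ψ q) (1 / 2) *
              (∑ r ∈ Finset.range q, if 0 < r ∧ 0 < ψ r then (Nat.gcd r q : ℝ) / q else 0)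
            ≤ ε * (∑ q ∈ Finset.Icc 1 Q, min (ψ q) (1 / 2)) ^ 2) →
        ∀ᵐ x : ℝ, ∃ᶠ q : ℕ in atTop, ∃ a : ℤ, |(q : ℝ) * x - a - γ q| < ψ q) ∧
      (∀ T : ℕ, (∀ q, 0 < ψ q → (Nat.divisors q).card ≤ T) →
        (¬ Summable (fun q : ℕ => (Nat.totient q : ℝ) / q * ψ q)) →
        ∀ᵐ x : ℝ, ∃ᶠ q : ℕ in atTop, ∃ a : ℤ, |(q : ℝ) * x - a - γ q| < ψ q)) :=
  ⟨fun γ ψ h0 h => Vale.Agent.Results.P028.AA_erdos_vaaler.result γ ψ h0 h,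
    fun γ ψ h0 => Vale.Agent.Results.P028.AAA_union.result γ ψ h0⟩

end Vale.Agent.Results.P028.AAAA_union
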