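import Vale.Agent.Lib.P028K.AE

open Filter MeasureTheory

namespace Vale.Agent.Results.P028.AAAAAAAAA_growth

/-- Large sieve theorem for functions that need not be monotone, with the exact weight `φ(q)/q`: `ψ(q)/q^θ` is essentially non-increasing above `1/q` on the windows `2 q ≤ r < q/(2 ψ(q))`, for some `0 < θ < 1/2`.
First part: let `γ` have Diophantine type `w ≥ 1`, i.e. `κ / n ^ w ≤ |n γ - a|` for all `n ≥ 1` and integers `a`. Let `ψ ≥ 0` satisfy, for `q ≥ q₀`, `2 q ≤ r`, `r (2 ψ q) < q`, `ψ q > 1/q` and `ψ r > 1/r`: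
`ψ r q^θ ≤ A ψ q r^θ`; and `τ(q)^(1 + w²) ψ(q) q^((1 + w²)/(2 + w²)) ≤ 1` whenever `q ≥ q₀` and `ψ q > 1/q`. If the sum of `φ(q)/q ψ(q)` diverges, then for almost every real `x`
the inequality `|q x - a - γ| < ψ q` holds for infinitely many `q`.
Second part: every irrational non-Liouville `γ` has `β < 1` such that the same conclusion holds for all `θ` and `ψ` as above, with `ψ q ≤ C₁ q^(-β)` (when `q ≥ q₀`, `ψ q > 1/q`) in place of the divisor condition.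
Third part: for almost every `γ` the second part holds with every `β > 2/3`. -/
theorem result :
    (∀ (γ κ w θ : ℝ), 0 < κ → 1 ≤ w → 0 < θ → θ < 1 / 2 →
      (∀ n : ℕ, 0 < n → ∀ a : ℤ, κ / (n : ℝ) ^ w ≤ |(n : ℝ) * γ - a|) →
      ∀ (ψ : ℕ → ℝ) (A : ℝ) (q₀ : ℕ), (∀ q, 0 ≤ ψ q) → 1 ≤ A →
      (∀ q r : ℕ, q₀ ≤ q → 1 / (q : ℝ) < ψ q → 1 / (r : ℝ) < ψ r → 2 * q ≤ r → (r : ℝ) * (2 * ψ q) < q →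
        ψ r * (q : ℝ) ^ θ ≤ A * ψ q * (r : ℝ) ^ θ) →
      (∀ q, q₀ ≤ q → 1 / (q : ℝ) < ψ q →
        (q.divisors.card : ℝ) ^ (1 + w ^ 2) * ψ q * (q : ℝ) ^ ((1 + w ^ 2) / (2 + w ^ 2)) ≤ 1) →
      ¬ Summable (fun q : ℕ => (Nat.totient q : ℝ) / q * ψ q) →
      ∀ᵐ x : ℝ, ∃ᶠ q : ℕ in atTop, ∃ a : ℤ, |(q : ℝ) * x - a - γ| < ψ q) ∧
    (∀ γ : ℝ, Irrational γ → ¬ Liouville γ →
      ∃ β : ℝ, β < 1 ∧ ∀ (θ : ℝ), 0 < θ → θ < 1 / 2 → ∀ (ψ : ℕ → ℝ) (A C₁ : ℝ) (q₀ : ℕ), (∀ q, 0 ≤ ψ q) → 1 ≤ A →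
        (∀ q r : ℕ, q₀ ≤ q → 1 / (q : ℝ) < ψ q → 1 / (r : ℝ) < ψ r → 2 * q ≤ r → (r : ℝ) * (2 * ψ q) < q →
          ψ r * (q : ℝ) ^ θ ≤ A * ψ q * (r : ℝ) ^ θ) →
        (∀ q, q₀ ≤ q → 1 / (q : ℝ) < ψ q → ψ q ≤ C₁ * (q : ℝ) ^ (-β)) →
        ¬ Summable (fun q : ℕ => (Nat.totient q : ℝ) / q * ψ q) →
        ∀ᵐ x : ℝ, ∃ᶠ q : ℕ in atTop, ∃ a : ℤ, |(q : ℝ) * x - a - γ| < ψ q) ∧
    (∀ᵐ γ : ℝ, ∀ β : ℝ, 2 / 3 < β → ∀ θ : ℝ, 0 < θ → θ < 1 / 2 →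
      ∀ (ψ : ℕ → ℝ) (A C₁ : ℝ) (q₀ : ℕ), (∀ q, 0 ≤ ψ q) → 1 ≤ A →
        (∀ q r : ℕ, q₀ ≤ q → 1 / (q : ℝ) < ψ q → 1 / (r : ℝ) < ψ r → 2 * q ≤ r → (r : ℝ) * (2 * ψ q) < q →
          ψ r * (q : ℝ) ^ θ ≤ A * ψ q * (r : ℝ) ^ θ) →
        (∀ q, q₀ ≤ q → 1 / (q : ℝ) < ψ q → ψ q ≤ C₁ * (q : ℝ) ^ (-β)) →
        ¬ Summable (fun q : ℕ => (Nat.totient q : ℝ) / q * ψ q) →
        ∀ᵐ x : ℝ, ∃ᶠ q : ℕ in atTop, ∃ a : ℤ, |(q : ℝ) * x - a - γ| < ψ q) :=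
  ⟨fun γ κ w θ hκ hw hθ0 hθ1 hdio ψ A q₀ h0 hA hmono hsize hdiv =>
      Vale.Agent.Lib.P028K.union_dio_K γ κ w θ hκ hw hθ0 hθ1 hdio ψ h0 A hA q₀ hmono hsize hdiv,
    fun γ hirr hL => Vale.Agent.Lib.P028K.union_nonLiouville_K γ hirr hL,
    Vale.Agent.Lib.P028K.ae_main_K⟩

end Vale.Agent.Results.P028.AAAAAAAAA_growth
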