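import Vale.Agent.Lib.P028I.Window

open Filter MeasureTheory

namespace Vale.Agent.Results.P028.AAAAAAA_divisors

/-- Large sieve theorem with a divisor hypothesis instead of a size hypothesis, exact weight `φ(q)/q`.
Here `τ(q)` is the number of divisors of `q`, `D_q(X)` the sum of the divisors of `q` below `X`, and `β = (1 + w²)/(2 + w²)`.
First part: let `γ` have Diophantine type `w ≥ 1`, i.e. `κ / n ^ w ≤ |n γ - a|` for all `n ≥ 1` and integers `a`. Let `ψ ≥ 0` be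
essentially non-increasing above `1/q`, and suppose that whenever `q ≥ q₀` and `ψ q > 1/q` we have `ψ q ≤ 1/9`,
`τ(q)^(1 + w²) ψ(q) ≤ 1` and `D_q(X) ≤ C √(X/ψ(q))` for all `0 ≤ X ≤ min (A/ψ(q)) (8 q^β)`. If the sum of `φ(q)/q ψ(q)` diverges,
then for almost every real `x` the inequality `|q x - a - γ| < ψ q` holds for infinitely many `q`.
Second part: the same when the condition on `D_q` is replaced by: every divisor `t` of `q` below `min (A/ψ(q)) (8 q^β)` satisfies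
`t τ(q)² ψ(q) ≤ C`, that is, `q` has no divisor in the window between `C / (τ(q)² ψ(q))` and `min (A/ψ(q)) (8 q^β)`.
Third part: every irrational non-Liouville `γ` has a `β` with `2/3 ≤ β < 1` for which the first part holds, with the exponent
`β/(1 - β)` of `τ(q)`. -/
theorem result :
    (∀ (γ κ w A C : ℝ), 0 < κ → 1 ≤ w → 1 ≤ A → 0 ≤ C →
      (∀ n : ℕ, 0 < n → ∀ a : ℤ, κ / (n : ℝ) ^ w ≤ |(n : ℝ) * γ - a|) →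
      ∀ (ψ : ℕ → ℝ) (q₀ : ℕ), (∀ q, 0 ≤ ψ q) →
      (∀ q r : ℕ, q₀ ≤ q → 1 / (q : ℝ) < ψ q → 1 / (r : ℝ) < ψ r → 2 * q ≤ r → ψ r ≤ A * ψ q) →
      (∀ q : ℕ, q₀ ≤ q → 1 / (q : ℝ) < ψ q → ψ q ≤ 1 / 9) →
      (∀ q : ℕ, q₀ ≤ q → 1 / (q : ℝ) < ψ q → (q.divisors.card : ℝ) ^ (1 + w ^ 2) * ψ q ≤ 1) →
      (∀ q : ℕ, q₀ ≤ q → 1 / (q : ℝ) < ψ q → ∀ X : ℝ, 0 ≤ X →
        X ≤ min (A / ψ q) (8 * (q : ℝ) ^ ((1 + w ^ 2) / (2 + w ^ 2))) →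
        ∑ t ∈ q.divisors.filter (fun t : ℕ => (t : ℝ) < X), (t : ℝ) ≤ C * Real.sqrt (X / ψ q)) →
      ¬ Summable (fun q : ℕ => (Nat.totient q : ℝ) / q * ψ q) →
      ∀ᵐ x : ℝ, ∃ᶠ q : ℕ in atTop, ∃ a : ℤ, |(q : ℝ) * x - a - γ| < ψ q) ∧
    (∀ (γ κ w A C : ℝ), 0 < κ → 1 ≤ w → 1 ≤ A → 0 ≤ C →
      (∀ n : ℕ, 0 < n → ∀ a : ℤ, κ / (n : ℝ) ^ w ≤ |(n : ℝ) * γ - a|) →
      ∀ (ψ : ℕ → ℝ) (q₀ : ℕ), (∀ q, 0 ≤ ψ q) →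
      (∀ q r : ℕ, q₀ ≤ q → 1 / (q : ℝ) < ψ q → 1 / (r : ℝ) < ψ r → 2 * q ≤ r → ψ r ≤ A * ψ q) →
      (∀ q : ℕ, q₀ ≤ q → 1 / (q : ℝ) < ψ q → ψ q ≤ 1 / 9) →
      (∀ q : ℕ, q₀ ≤ q → 1 / (q : ℝ) < ψ q → (q.divisors.card : ℝ) ^ (1 + w ^ 2) * ψ q ≤ 1) →
      (∀ q : ℕ, q₀ ≤ q → 1 / (q : ℝ) < ψ q → ∀ t ∈ q.divisors,
        (t : ℝ) < min (A / ψ q) (8 * (q : ℝ) ^ ((1 + w ^ 2) / (2 + w ^ 2))) →
        (t : ℝ) * (q.divisors.card : ℝ) ^ 2 * ψ q ≤ C) →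
      ¬ Summable (fun q : ℕ => (Nat.totient q : ℝ) / q * ψ q) →
      ∀ᵐ x : ℝ, ∃ᶠ q : ℕ in atTop, ∃ a : ℤ, |(q : ℝ) * x - a - γ| < ψ q) ∧
    (∀ γ : ℝ, Irrational γ → ¬ Liouville γ →
      ∃ β : ℝ, 2 / 3 ≤ β ∧ β < 1 ∧ ∀ (ψ : ℕ → ℝ) (A C : ℝ) (q₀ : ℕ), (∀ q, 0 ≤ ψ q) → 1 ≤ A → 0 ≤ C →
        (∀ q r : ℕ, q₀ ≤ q → 1 / (q : ℝ) < ψ q → 1 / (r : ℝ) < ψ r → 2 * q ≤ r → ψ r ≤ A * ψ q) →
        (∀ q : ℕ, q₀ ≤ q → 1 / (q : ℝ) < ψ q → ψ q ≤ 1 / 9) →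
        (∀ q : ℕ, q₀ ≤ q → 1 / (q : ℝ) < ψ q → (q.divisors.card : ℝ) ^ (β / (1 - β)) * ψ q ≤ 1) →
        (∀ q : ℕ, q₀ ≤ q → 1 / (q : ℝ) < ψ q → ∀ X : ℝ, 0 ≤ X → X ≤ min (A / ψ q) (8 * (q : ℝ) ^ β) →
          ∑ t ∈ q.divisors.filter (fun t : ℕ => (t : ℝ) < X), (t : ℝ) ≤ C * Real.sqrt (X / ψ q)) →
        ¬ Summable (fun q : ℕ => (Nat.totient q : ℝ) / q * ψ q) →
        ∀ᵐ x : ℝ, ∃ᶠ q : ℕ in atTop, ∃ a : ℤ, |(q : ℝ) * x - a - γ| < ψ q) :=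
  ⟨fun γ κ w A C hκ hw hA hC hdio ψ q₀ h0 hmono hle hτ hdsum hdiv =>
      Vale.Agent.Lib.P028I.final_I_upper γ κ w A C hκ hw hA hC hdio ψ h0 q₀ hmono hle hτ hdsum hdiv,
    fun γ κ w A C hκ hw hA hC hdio ψ q₀ h0 hmono hle hτ hwin hdiv =>
      Vale.Agent.Lib.P028I.window_upper γ κ w A C hκ hw hA hC hdio ψ h0 q₀ hmono hle hτ hwin hdiv,
    fun γ hirr hL => Vale.Agent.Lib.P028I.nonLiouville_I γ hirr hL⟩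

end Vale.Agent.Results.P028.AAAAAAA_divisors
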