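import Vale.Agent.Results.P028.A_gcd_criterion
import Vale.Agent.Results.P028.B_few_divisors

open Filter

namespace Vale.Agent.Results.P028.AAA_union

/-- Both full measure criteria, valid for every sequence of shifts. -/
theorem result (γ ψ : ℕ → ℝ) (h0 : ∀ q, 0 ≤ ψ q) :
    ((Tendsto (fun Q : ℕ => ∑ q ∈ Finset.Icc 1 Q, min (ψ q) (1 / 2)) atTop atTop) →
      (∀ ε : ℝ, 0 < ε → ∃ᶠ Q : ℕ in atTop,
        ∑ q ∈ Finset.Icc 1 Q, min (ψ q) (1 / 2) *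
            (∑ r ∈ Finset.range q, if 0 < r ∧ 0 < ψ r then (Nat.gcd r q : ℝ) / q else 0)
          ≤ ε * (∑ q ∈ Finset.Icc 1 Q, min (ψ q) (1 / 2)) ^ 2) →
      ∀ᵐ x : ℝ, ∃ᶠ q : ℕ in atTop, ∃ a : ℤ, |(q : ℝ) * x - a - γ q| < ψ q) ∧
    (∀ T : ℕ, (∀ q, 0 < ψ q → (Nat.divisors q).card ≤ T) →
      (¬ Summable (fun q : ℕ => (Nat.totient q : ℝ) / q * ψ q)) →
      ∀ᵐ x : ℝ, ∃ᶠ q : ℕ in atTop, ∃ a : ℤ, |(q : ℝ) * x - a - γ q| < ψ q) :=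
  ⟨fun hdiv hcrit => Vale.Agent.Results.P028.A_gcd_criterion.result γ ψ h0 hdiv hcrit,
    fun T hT hw => Vale.Agent.Results.P028.B_few_divisors.result γ ψ h0 T hT hw⟩

end Vale.Agent.Results.P028.AAA_union
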