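import Vale.Agent.Lib.P028E.Final

open Filter MeasureTheory

namespace Vale.Agent.Results.P028.AA_vaaler

/-- Inhomogeneous Erdos-Vaaler theorems. Write `ψ₁ q = min (ψ q) (1 / q)`. If `γ` is irrational and
not a Liouville number and the sum of `ψ₁` diverges, or if `γ` is arbitrary and for some `c > 0` the
sum of `ψ₁ q` over the `q` with `φ(q) ≥ c q` diverges, then for almost every real `x` the inequality
`|q x - a - γ| < ψ q` has solutions `(q, a)` for infinitely many `q`. -/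
theorem result (γ : ℝ) (ψ : ℕ → ℝ) (h0 : ∀ q, 0 ≤ ψ q) :
    ((Irrational γ ∧ ¬ Liouville γ ∧ ¬ Summable (fun q : ℕ => min (ψ q) (1 / (q : ℝ)))) ∨
      (∃ c : ℝ, 0 < c ∧ ¬ Summable (fun q : ℕ =>
        if c * q ≤ Nat.totient q then min (ψ q) (1 / (q : ℝ)) else 0))) →
    ∀ᵐ x : ℝ, ∃ᶠ q : ℕ in atTop, ∃ a : ℤ, |(q : ℝ) * x - a - γ| < ψ q := by
  have h1 : ∀ q : ℕ, 0 ≤ min (ψ q) (1 / (q : ℝ)) := fun q => le_min (h0 q) (by positivity)
  have hC : ∀ q : ℕ, 1 ≤ q → min (ψ q) (1 / (q : ℝ)) ≤ 1 / q := fun q _ => min_le_right _ _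
  have hle : ∀ q : ℕ, min (ψ q) (1 / (q : ℝ)) ≤ ψ q := fun q => min_le_left _ _
  rintro (⟨hirr, hL, hdiv⟩ | ⟨c, hc, hdiv⟩)
  · obtain ⟨c, n, hc, hdio⟩ := Vale.Agent.Lib.P028E.dio_of_not_liouville γ hirr hL
    exact Vale.Agent.Lib.P028E.ae_mono hle
      (Vale.Agent.Lib.P028E.main_dio γ _ h1 1 hC hdiv c n hc hdio)
  · exact Vale.Agent.Lib.P028E.ae_mono hle
      (Vale.Agent.Lib.P028E.main_thin γ _ h1 1 hC c hc hdiv)

end Vale.Agent.Results.P028.AA_vaaler
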